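import Vale.Agent.P072.Dynamics

/-! # Weakly reversible mass-action systems are permanent -/

namespace Vale.Agent.Results.P072.Permanence

open Vale.Agent.P072

/-- Every finite weakly reversible network with positive rate constants is permanent on every
positive stoichiometric class. -/
theorem result :
    ∀ (d : ℕ) (R : Finset (Reaction d)) (k : Reaction d → ℝ), WeaklyReversible R →
      (∀ r ∈ R, 0 < k r) → ∀ c : Fin d → ℝ, (∀ i, 0 < c i) → PermanentOn R k c :=
  fun _ R k hW hk c hc => permanent R k hW hk c hc

end Vale.Agent.Results.P072.Permanence
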